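import Vale.Agent.P224.Clifford.Main
import Vale.Agent.P224.Clifford.Covered
import Vale.Agent.P224.Clifford.Cone
import Vale.Agent.P224.Clifford.Simons
import Vale.Agent.P224.Clifford.Torus

namespace Vale.Agent.Results.P224.CliffordBound

open Vale.Agent.P224.Clifford MeasureTheory
open Vale.Agent.P224.Gap (sphereArea)

/-- The least Clifford value `a_m` bounds the volume of every closed minimal immersion with
`|A|² ≥ m`, in particular with constant nonzero `|A|²`; in general the deficit is paid by the
part with `|A|² < m`. The Clifford torus is an instance. -/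
theorem result :
    (∀ (m : ℕ) (ι : Type) [Fintype ι] (F : Immersion m ι), 2 ≤ m → F.IsMinimal →
      ENNReal.ofReal (cliffordMin m * sphereArea m) ≤
          ENNReal.ofReal (sphereArea m) * F.vol +
            ENNReal.ofReal (cliffordMin m - sphereArea m) * F.volBelow ∧
        ((∀ j, ∀ u ∈ F.piece j, (m : ℝ) ≤ F.sffSq j u) →
          ENNReal.ofReal (cliffordMin m) ≤ F.vol) ∧
        ((∃ c : ℝ, c ≠ 0 ∧ ∀ j, ∀ u ∈ F.dom j, F.sffSq j u = c) →
          ENNReal.ofReal (cliffordMin m) ≤ F.vol)) ∧
    ∃ F : Immersion 2 (Fin 1), F.IsMinimal ∧ ∀ j, ∀ u ∈ F.dom j, F.sffSq j u = 2 :=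
  ⟨fun _ _ _ F hm hmin =>
    ⟨defect_bound (coneBound covered) spectral F hm hmin,
      fun h => clifford_bound (coneBound covered) spectral F hm hmin h,
      fun ⟨_, hc0, hc⟩ => constant_bound (coneBound covered) spectral constantCurvature F hm hmin hc0 hc⟩,
    ⟨Torus.torus, Torus.isMinimal, fun j u _ => Torus.sffSq_eq j u⟩⟩

end Vale.Agent.Results.P224.CliffordBound
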