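import Vale.Agent.P224.Gap.Main
import Vale.Agent.P224.Gap.Instance
import Vale.Agent.P224.Window.Main

namespace Vale.Agent.Results.P224.DimensionFreeGap

open Vale.Agent.P224.Gap MeasureTheory

attribute [local instance] Clifford.twoPiFact

/-- Volume gaps independent of the dimension: every closed minimal immersion in `S^(m+1)` which is
not totally geodesic has volume at least `(1 + 10⁻⁸) |S^m|` if `m ≥ 2`, and at least
`(1 + 1/20) |S^m|` if `m ≥ 100`; and the model is inhabited by the minimal Clifford torus. -/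
theorem result :
    (∀ (m : ℕ) (M : Type) [TopologicalSpace M] [MeasurableSpace M] [CompactSpace M] [BorelSpace M]
      (S : MinimalImmersion m M), 2 ≤ m → S.NotTotallyGeodesic →
        (1 + 1 / 10 ^ 8) * (2 * Real.pi ^ ((m + 1 : ℝ) / 2) / Real.Gamma ((m + 1 : ℝ) / 2))
          ≤ (S.vol Set.univ).toReal) ∧
    (∀ (m : ℕ) (M : Type) [TopologicalSpace M] [MeasurableSpace M] [CompactSpace M] [BorelSpace M]
      (S : MinimalImmersion m M), 100 ≤ m → S.NotTotallyGeodesic →
        (1 + 1 / 20) * (2 * Real.pi ^ ((m + 1 : ℝ) / 2) / Real.Gamma ((m + 1 : ℝ) / 2))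
          ≤ (S.vol Set.univ).toReal) ∧
    ∃ (M : Type) (_ : TopologicalSpace M) (_ : MeasurableSpace M) (_ : CompactSpace M)
      (_ : BorelSpace M) (S : MinimalImmersion 2 M), S.NotTotallyGeodesic :=
  ⟨fun _ _ _ _ _ _ S hm hnt => S.gap hm hnt, fun _ _ _ _ _ _ S hm hnt => S.gap_large hm hnt,
    ⟨Clifford.Mt, inferInstance, inferInstance, inferInstance, inferInstance,
      Clifford.cliffordTorus, Clifford.cliffordTorus_notTotallyGeodesic⟩⟩

end Vale.Agent.Results.P224.DimensionFreeGap
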